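import Vale.Agent.Lib.P229.Frame

/-!
# Local smooth isometric realization of a class of degenerate metrics

Every smooth metric `du² + G² dv²` whose function `G` satisfies
`∂_u G(u,v) = a(v) cos φ(u) + b(v) sin φ(u)` with smooth `a, b, φ` is locally realizable by a smooth
isometric immersion in `ℝ³`.  No condition is put on the zeros of the Gaussian curvature
`K = -G_uu / G = φ'(u) (a(v) sin φ(u) - b(v) cos φ(u)) / G`.
-/

open Set Filter Topology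
open scoped ContDiff

namespace Vale.Agent.Results.P229.MongeMetrics

open Vale.Agent.Lib.P229

/-- `g q w w' = ⟨w, w'⟩` at the point `q` is locally `C^∞`-realizable at `p`: some open
neighbourhood of `p` admits a `C^∞` isometric immersion into Euclidean `ℝ³` -/
def RealizableAt (g : ℝ × ℝ → ℝ × ℝ → ℝ × ℝ → ℝ) (p : ℝ × ℝ) : Prop :=
  ∃ U : Set (ℝ × ℝ), IsOpen U ∧ p ∈ U ∧ ∃ F : ℝ × ℝ → EuclideanSpace ℝ (Fin 3),
    ContDiffOn ℝ ∞ F U ∧
      ∀ q ∈ U, ∀ w w' : ℝ × ℝ, inner ℝ (fderiv ℝ F q w) (fderiv ℝ F q w') = g q w w'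

/-- the metric `du² + G(u,v)² dv²` -/
def semigeodesic (G : ℝ × ℝ → ℝ) (q w w' : ℝ × ℝ) : ℝ :=
  w.1 * w'.1 + G q ^ 2 * (w.2 * w'.2)

/-- a smooth primitive -/
theorem primitive {f : ℝ → ℝ} (hf : ContDiff ℝ ∞ f) (u₀ : ℝ) :
    ∃ x : ℝ → ℝ, ContDiff ℝ ∞ x ∧ x u₀ = 0 ∧ ∀ u, HasDerivAt x (f u) u := by
  have hd : ∀ u, HasDerivAt (fun u => ∫ s in u₀..u, f s) (f u) u := fun u =>
    intervalIntegral.integral_hasDerivAt_right (hf.continuous.intervalIntegrable _ _)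
      (hf.continuous.stronglyMeasurableAtFilter _ _) hf.continuous.continuousAt
  refine ⟨fun u => ∫ s in u₀..u, f s, ?_, by simp, hd⟩
  rw [contDiff_infty_iff_deriv]
  refine ⟨fun u => (hd u).differentiableAt, ?_⟩
  have h : deriv (fun u => ∫ s in u₀..u, f s) = f := by
    funext u
    exact (hd u).deriv
  rw [h]
  exact hf

/-- the explicit form -/
theorem monge_form {x z C S a b β : ℝ → ℝ} {u₀ v₀ δ : ℝ} (hδ : 0 < δ)
    (hx : ContDiff ℝ ∞ x) (hz : ContDiff ℝ ∞ z) (hx' : ∀ u, HasDerivAt x (C u) u)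
    (hz' : ∀ u, HasDerivAt z (S u) u) (hCS : ∀ u, C u ^ 2 + S u ^ 2 = 1)
    (ha : ContDiffOn ℝ ∞ a (Ioo (v₀ - δ) (v₀ + δ)))
    (hb : ContDiffOn ℝ ∞ b (Ioo (v₀ - δ) (v₀ + δ)))
    (hβ : ContDiffOn ℝ ∞ β (Ioo (v₀ - δ) (v₀ + δ))) {G : ℝ × ℝ → ℝ}
    (hG : ∀ u ∈ Ioo (u₀ - δ) (u₀ + δ), ∀ v ∈ Ioo (v₀ - δ) (v₀ + δ),
      G (u, v) = β v + a v * x u + b v * z u) :
    RealizableAt (semigeodesic G) (u₀, v₀) := by
  obtain ⟨ε, hε, hεδ, Y, c, hY, hc, hder, horth⟩ := frame hδ ha hb hβ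
  have hsub : Ioo (v₀ - ε) (v₀ + ε) ⊆ Ioo (v₀ - δ) (v₀ + δ) := fun t ht =>
    ⟨by linarith [ht.1], by linarith [ht.2]⟩
  let U : Set (ℝ × ℝ) := Ioo (u₀ - δ) (u₀ + δ) ×ˢ Ioo (v₀ - ε) (v₀ + ε)
  have hU : IsOpen U := isOpen_Ioo.prod isOpen_Ioo
  let F : ℝ × ℝ → EuclideanSpace ℝ (Fin 3) := fun q =>
    WithLp.toLp 2 fun k => c q.2 k + x q.1 * Y q.2 1 k + z q.1 * Y q.2 2 k
  have hF : ContDiffOn ℝ ∞ F U := by
    rw [contDiffOn_euclidean]
    intro k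
    have hsnd : MapsTo (fun q : ℝ × ℝ => q.2) U (Ioo (v₀ - ε) (v₀ + ε)) := fun q hq => hq.2
    have h1 : ContDiffOn ℝ ∞ (fun q : ℝ × ℝ => c q.2 k) U :=
      (hc k).comp contDiff_snd.contDiffOn hsnd
    have h2 : ContDiffOn ℝ ∞ (fun q : ℝ × ℝ => Y q.2 1 k) U :=
      (hY 1 k).comp contDiff_snd.contDiffOn hsnd
    have h3 : ContDiffOn ℝ ∞ (fun q : ℝ × ℝ => Y q.2 2 k) U :=
      (hY 2 k).comp contDiff_snd.contDiffOn hsnd
    have h4 : ContDiffOn ℝ ∞ (fun q : ℝ × ℝ => x q.1) U :=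
      (hx.comp contDiff_fst).contDiffOn
    have h5 : ContDiffOn ℝ ∞ (fun q : ℝ × ℝ => z q.1) U :=
      (hz.comp contDiff_fst).contDiffOn
    exact (h1.add (h4.mul h2)).add (h5.mul h3)
  refine ⟨U, hU, ⟨⟨by linarith, by linarith⟩, ⟨by linarith, by linarith⟩⟩, F, hF, ?_⟩
  intro q hq
  obtain ⟨u, v⟩ := q
  have hv : v ∈ Ioo (v₀ - ε) (v₀ + ε) := hq.2
  have hu : u ∈ Ioo (u₀ - δ) (u₀ + δ) := hq.1
  have hcomp : ∀ (w : ℝ × ℝ) (k : Fin 3), (fderiv ℝ F (u, v) w) k =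
      w.1 * (C u * Y v 1 k + S u * Y v 2 k) + w.2 * (G (u, v) * Y v 0 k) := by
    intro w k
    have hdF : DifferentiableAt ℝ F (u, v) :=
      (hF.contDiffAt (hU.mem_nhds hq)).differentiableAt (by simp)
    have h1 : HasFDerivAt (fun q : ℝ × ℝ => F q k)
        ((EuclideanSpace.proj k : EuclideanSpace ℝ (Fin 3) →L[ℝ] ℝ) ∘L (fderiv ℝ F (u, v)))
        (u, v) :=
      (EuclideanSpace.proj k : EuclideanSpace ℝ (Fin 3) →L[ℝ] ℝ).hasFDerivAt.comp (u, v)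
        hdF.hasFDerivAt
    obtain ⟨hY0, hY1, hY2, hc'⟩ := hder v hv k
    have f1 : HasFDerivAt (fun q : ℝ × ℝ => q.1) (ContinuousLinearMap.fst ℝ ℝ ℝ) (u, v) :=
      hasFDerivAt_fst
    have f2 : HasFDerivAt (fun q : ℝ × ℝ => q.2) (ContinuousLinearMap.snd ℝ ℝ ℝ) (u, v) :=
      hasFDerivAt_snd
    have g1 := HasDerivAt.comp_hasFDerivAt (f := fun q : ℝ × ℝ => q.2) (u, v) hc' f2
    have g2 := HasDerivAt.comp_hasFDerivAt (f := fun q : ℝ × ℝ => q.1) (u, v) (hx' u) f1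
    have g3 := HasDerivAt.comp_hasFDerivAt (f := fun q : ℝ × ℝ => q.1) (u, v) (hz' u) f1
    have g4 := HasDerivAt.comp_hasFDerivAt (f := fun q : ℝ × ℝ => q.2) (u, v) hY1 f2
    have g5 := HasDerivAt.comp_hasFDerivAt (f := fun q : ℝ × ℝ => q.2) (u, v) hY2 f2
    have h2 := (g1.add (g2.mul g4)).add (g3.mul g5)
    have h3 := h1.unique h2
    have h4 := congrArg (fun L : ℝ × ℝ →L[ℝ] ℝ => L w) h3
    have h5 : (fderiv ℝ F (u, v) w) k =
        ((EuclideanSpace.proj k : EuclideanSpace ℝ (Fin 3) →L[ℝ] ℝ) ∘L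
          (fderiv ℝ F (u, v))) w := rfl
    rw [h5]
    refine h4.trans ?_
    rw [hG u hu v (hsub hv)]
    simp
    ring
  intro w w'
  have h00 : ∑ k, Y v 0 k * Y v 0 k = 1 := by simpa using horth v hv 0 0
  have h11 : ∑ k, Y v 1 k * Y v 1 k = 1 := by simpa using horth v hv 1 1
  have h22 : ∑ k, Y v 2 k * Y v 2 k = 1 := by simpa using horth v hv 2 2
  have h01 : ∑ k, Y v 0 k * Y v 1 k = 0 := by simpa using horth v hv 0 1
  have h02 : ∑ k, Y v 0 k * Y v 2 k = 0 := by simpa using horth v hv 0 2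
  have h12 : ∑ k, Y v 1 k * Y v 2 k = 0 := by simpa using horth v hv 1 2
  have hin : inner ℝ (fderiv ℝ F (u, v) w) (fderiv ℝ F (u, v) w') =
      ∑ k, (fderiv ℝ F (u, v) w) k * (fderiv ℝ F (u, v) w') k := by
    rw [PiLp.inner_apply]
    refine Finset.sum_congr rfl fun k _ => ?_
    simp [mul_comm]
  rw [hin]
  simp only [hcomp]
  rw [Fin.sum_univ_three] at *
  unfold semigeodesic
  have hcs := hCS u
  linear_combination (w.1 * w'.1) * hcs + (w.1 * w'.1 * C u ^ 2) * h11 +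
    (w.1 * w'.1 * S u ^ 2) * h22 + (2 * w.1 * w'.1 * C u * S u) * h12 +
    (w.2 * w'.2 * G (u, v) ^ 2) * h00 +
    ((w.1 * w'.2 + w.2 * w'.1) * G (u, v) * C u) * h01 +
    ((w.1 * w'.2 + w.2 * w'.1) * G (u, v) * S u) * h02

/-- The main result.  Let `U` be an open set in the `(u,v)`-plane, `G : U → ℝ` smooth and suppose that
`∂_u G (u,v) = a(v) cos φ(u) + b(v) sin φ(u)` on `U` for smooth functions `φ, a, b` of one variable.
Then `du² + G² dv²` is locally `C^∞`-realizable in `ℝ³` at every point of `U`. -/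
theorem result {U : Set (ℝ × ℝ)} (hU : IsOpen U) {G : ℝ × ℝ → ℝ} (hG : ContDiffOn ℝ ∞ G U)
    {φ a b : ℝ → ℝ} (hφ : ContDiff ℝ ∞ φ) (ha : ContDiff ℝ ∞ a) (hb : ContDiff ℝ ∞ b)
    (hGu : ∀ q ∈ U, HasDerivAt (fun u => G (u, q.2))
      (a q.2 * Real.cos (φ q.1) + b q.2 * Real.sin (φ q.1)) q.1) :
    ∀ p ∈ U, RealizableAt (semigeodesic G) p := by
  rintro ⟨u₀, v₀⟩ hp
  obtain ⟨δ, hδ, hball⟩ := Metric.isOpen_iff.1 hU (u₀, v₀) hp
  have hbox : ∀ u ∈ Ioo (u₀ - δ) (u₀ + δ), ∀ v ∈ Ioo (v₀ - δ) (v₀ + δ), (u, v) ∈ U := by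
    intro u hu v hv
    apply hball
    rw [← ball_prod_same]
    refine ⟨?_, ?_⟩
    · rw [Metric.mem_ball, Real.dist_eq, abs_lt]
      exact ⟨by linarith [hu.1], by linarith [hu.2]⟩
    · rw [Metric.mem_ball, Real.dist_eq, abs_lt]
      exact ⟨by linarith [hv.1], by linarith [hv.2]⟩
  obtain ⟨x, hx, hx0, hx'⟩ := primitive (Real.contDiff_cos.comp hφ) u₀
  obtain ⟨z, hz, hz0, hz'⟩ := primitive (Real.contDiff_sin.comp hφ) u₀
  have hβ : ContDiffOn ℝ ∞ (fun v => G (u₀, v)) (Ioo (v₀ - δ) (v₀ + δ)) :=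
    hG.comp (contDiff_const.prodMk contDiff_id).contDiffOn
      (fun v hv => hbox u₀ ⟨by linarith, by linarith⟩ v hv)
  refine monge_form (x := x) (z := z) (C := fun u => Real.cos (φ u))
    (S := fun u => Real.sin (φ u)) (a := a) (b := b) (β := fun v => G (u₀, v)) hδ hx hz hx' hz'
    (fun u => Real.cos_sq_add_sin_sq _) ha.contDiffOn hb.contDiffOn hβ ?_
  intro u hu v hv
  have hd : ∀ s ∈ Ioo (u₀ - δ) (u₀ + δ),
      HasDerivAt (fun s => G (s, v) - (a v * x s + b v * z s)) 0 s := by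
    intro s hs
    have h := (hGu (s, v) (hbox s hs v hv)).sub
      (((hx' s).const_mul (a v)).add ((hz' s).const_mul (b v)))
    refine h.congr_deriv ?_
    simp [Function.comp]
  have hconst := (convex_Ioo (u₀ - δ) (u₀ + δ)).is_const_of_fderivWithin_eq_zero (𝕜 := ℝ)
    (f := fun s => G (s, v) - (a v * x s + b v * z s))
    (fun t ht => (hd t ht).differentiableAt.differentiableWithinAt)
    (fun t ht => by
      have := (hd t ht).hasDerivWithinAt (s := Ioo (u₀ - δ) (u₀ + δ))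
      have h3 := this.hasFDerivWithinAt.fderivWithin (isOpen_Ioo.uniqueDiffWithinAt ht)
      rw [h3]
      ext
      simp)
    hu (show u₀ ∈ Ioo (u₀ - δ) (u₀ + δ) from ⟨by linarith, by linarith⟩)
  simp only [hx0, hz0] at hconst
  linarith

end Vale.Agent.Results.P229.MongeMetrics
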